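import Vale.Agent.P141.Defs

/-!
From a finite integer configuration of pairs `(x,t)` to a Schwartz triple with a lower bound for
the trilinear Hilbert transform.
-/

open MeasureTheory Filter Topology Set
open scoped SchwartzMap ENNReal

namespace Vale.Agent.P141

noncomputable def bump : ContDiffBump (0 : ℝ) :=
  ⟨1 / 4, 9 / 20, by norm_num, by norm_num⟩

noncomputable def comb (A : Finset ℤ) (s : ℤ) (y : ℝ) : ℝ :=
  ∑ a ∈ A, bump (y - ((a - s : ℤ) : ℝ))

lemma comb_nonneg (A : Finset ℤ) (s : ℤ) (y : ℝ) : 0 ≤ comb A s y :=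
  Finset.sum_nonneg fun _ _ => bump.nonneg

lemma comb_contDiff (A : Finset ℤ) (s : ℤ) : ContDiff ℝ (⊤ : ℕ∞) (comb A s) := by
  unfold comb
  exact ContDiff.sum fun a _ => bump.contDiff.comp (contDiff_id.sub contDiff_const)

lemma comb_ne_zero {A : Finset ℤ} {s : ℤ} {y : ℝ} (h : comb A s y ≠ 0) :
    ∃ a ∈ A, |y - ((a - s : ℤ) : ℝ)| < 9 / 20 := by
  obtain ⟨a, ha, hb⟩ := Finset.exists_ne_zero_of_sum_ne_zero h
  refine ⟨a, ha, ?_⟩
  by_contra hc
  push Not at hc
  exact hb (bump.zero_of_le_dist (by rw [Real.dist_eq, sub_zero]; exact hc))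

lemma comb_le_indicator (A : Finset ℤ) (s : ℤ) (y : ℝ) :
    comb A s y ≤ (⋃ a ∈ A, Metric.closedBall ((a - s : ℤ) : ℝ) (1 / 2)).indicator
      (fun _ => (1 : ℝ)) y := by
  by_cases h : comb A s y = 0
  · rw [h]
    exact Set.indicator_nonneg (fun _ _ => zero_le_one) _
  obtain ⟨a, ha, hy⟩ := comb_ne_zero h
  have hmem : y ∈ ⋃ a ∈ A, Metric.closedBall ((a - s : ℤ) : ℝ) (1 / 2) := by
    simp only [Set.mem_iUnion]
    exact ⟨a, ha, by rw [Metric.mem_closedBall, Real.dist_eq]; linarith⟩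
  rw [Set.indicator_of_mem hmem]
  have : comb A s y = bump (y - ((a - s : ℤ) : ℝ)) := by
    refine Finset.sum_eq_single_of_mem a ha fun b _ hb => ?_
    apply bump.zero_of_le_dist
    rw [Real.dist_eq, sub_zero]
    show (9 / 20 : ℝ) ≤ _
    by_contra hc
    push Not at hc
    have h1 : |((b : ℤ) : ℝ) - (a : ℝ)| < 9 / 10 := by
      push_cast at hc hy
      rw [abs_lt] at hc hy ⊢
      constructor <;> linarith [hc.1, hc.2, hy.1, hy.2]
    have h2 : (1 : ℝ) ≤ |((b - a : ℤ) : ℝ)| := by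
      exact_mod_cast Int.one_le_abs (sub_ne_zero.2 hb)
    push_cast at h2
    linarith
  rw [this]
  exact bump.le_one

lemma comb_hasCompactSupport (A : Finset ℤ) (s : ℤ) : HasCompactSupport (comb A s) := by
  refine HasCompactSupport.intro (K := ⋃ a ∈ A, Metric.closedBall ((a - s : ℤ) : ℝ) (1 / 2))
    (A.finite_toSet.isCompact_biUnion fun a _ => isCompact_closedBall _ _) fun y hy => ?_
  have := comb_le_indicator A s y
  rw [Set.indicator_of_notMem hy] at this
  exact le_antisymm this (comb_nonneg A s y)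

noncomputable def combS (A : Finset ℤ) (s : ℤ) : 𝓢(ℝ, ℂ) :=
  HasCompactSupport.toSchwartzMap (f := fun y => ((comb A s y : ℝ) : ℂ))
    ((comb_hasCompactSupport A s).comp_left Complex.ofReal_zero)
    (Complex.ofRealCLM.contDiff.comp (comb_contDiff A s))

lemma combS_apply (A : Finset ℤ) (s : ℤ) (y : ℝ) : combS A s y = ((comb A s y : ℝ) : ℂ) := rfl

lemma eLpNorm_combS_le (A : Finset ℤ) (s : ℤ) {p : ℝ} (hp : 0 < p) :
    eLpNorm (combS A s) (ENNReal.ofReal p) volume ≤ ENNReal.ofReal ((A.card : ℝ) ^ (1 / p)) := by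
  set U := ⋃ a ∈ A, Metric.closedBall ((a - s : ℤ) : ℝ) (1 / 2)
  calc eLpNorm (combS A s) (ENNReal.ofReal p) volume
      ≤ eLpNorm (U.indicator fun _ => (1 : ℝ)) (ENNReal.ofReal p) volume := by
        refine eLpNorm_mono_real fun y => ?_
        rw [combS_apply, Complex.norm_real, Real.norm_eq_abs, abs_of_nonneg (comb_nonneg _ _ _)]
        exact comb_le_indicator A s y
    _ ≤ ‖(1 : ℝ)‖ₑ * volume U ^ (1 / (ENNReal.ofReal p).toReal) := eLpNorm_indicator_const_le _ _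
    _ ≤ ENNReal.ofReal ((A.card : ℝ) ^ (1 / p)) := by
        rw [enorm_one, one_mul, ENNReal.toReal_ofReal hp.le,
          ← ENNReal.ofReal_rpow_of_nonneg (Nat.cast_nonneg _) (by positivity),
          ENNReal.ofReal_natCast]
        refine ENNReal.rpow_le_rpow ?_ (by positivity)
        refine (measure_biUnion_finset_le _ _).trans ?_
        simp [Real.volume_closedBall]

/-- The integrand of the transform for a configuration. -/
noncomputable def kern (A : Fin 3 → Finset ℤ) (S : ℤ) (x t : ℝ) : ℝ :=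
  comb (A 0) S (x - t) * comb (A 1) (2 * S) (x - 2 * t) * comb (A 2) (3 * S) (x - 3 * t) / t

lemma kern_support {A : Fin 3 → Finset ℤ} {S : ℤ} {D : ℕ}
    (hA : ∀ i, ∀ a ∈ A i, |a| ≤ (4 * D : ℕ)) (hS : S = 8 * D + 4) {x t : ℝ}
    (h : kern A S x t ≠ 0) : 1 ≤ t ∧ t ≤ 16 * D + 8 := by
  unfold kern at h
  simp only [ne_eq, div_eq_zero_iff, mul_eq_zero, not_or] at h
  obtain ⟨⟨⟨h1, h2⟩, -⟩, -⟩ := h
  obtain ⟨a, ha, ha'⟩ := comb_ne_zero h1
  obtain ⟨b, hb, hb'⟩ := comb_ne_zero h2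
  have hA' : |(a : ℝ)| ≤ 4 * D := by exact_mod_cast hA 0 a ha
  have hB' : |(b : ℝ)| ≤ 4 * D := by exact_mod_cast hA 1 b hb
  subst hS
  push_cast at ha' hb'
  rw [abs_lt] at ha' hb'
  rw [abs_le] at hA' hB'
  constructor <;> linarith [ha'.1, ha'.2, hb'.1, hb'.2, hA'.1, hA'.2, hB'.1, hB'.2]

lemma kern_integrable {A : Fin 3 → Finset ℤ} {S : ℤ} {D : ℕ}
    (hA : ∀ i, ∀ a ∈ A i, |a| ≤ (4 * D : ℕ)) (hS : S = 8 * D + 4) (x : ℝ) :
    Integrable (kern A S x) := by
  have hsup : ∀ t, t ∉ Set.Icc (1 : ℝ) (16 * D + 8) → kern A S x t = 0 := fun t ht => by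
    by_contra hc
    exact ht (kern_support hA hS hc)
  have hcont : ContinuousOn (kern A S x) (Set.Icc (1 : ℝ) (16 * D + 8)) := by
    unfold kern
    refine ContinuousOn.div ?_ continuousOn_id fun t ht => (zero_lt_one.trans_le ht.1).ne'
    have h := fun i s => (comb_contDiff (A i) s).continuous
    exact (((h 0 S).comp (continuous_const.sub continuous_id)).mul
      ((h 1 (2 * S)).comp (continuous_const.sub (continuous_const.mul continuous_id)))).mul
      ((h 2 (3 * S)).comp (continuous_const.sub (continuous_const.mul continuous_id))) |>.continuousOn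
  exact (hcont.integrableOn_compact isCompact_Icc).integrable_of_forall_notMem_eq_zero hsup

lemma tendsto_trunc {A : Fin 3 → Finset ℤ} {S : ℤ} {D : ℕ}
    (hA : ∀ i, ∀ a ∈ A i, |a| ≤ (4 * D : ℕ)) (hS : S = 8 * D + 4) (x : ℝ) :
    Tendsto (fun q : ℝ × ℝ =>
      trunc (combS (A 0) S) (combS (A 1) (2 * S)) (combS (A 2) (3 * S)) q.1 q.2 x)
      ((𝓝[>] 0) ×ˢ atTop) (𝓝 ((∫ t, kern A S x t : ℝ) : ℂ)) := by
  refine Tendsto.congr' ?_ tendsto_const_nhds
  have h1 : ∀ᶠ q : ℝ × ℝ in (𝓝[>] 0) ×ˢ atTop, q.1 < 1 ∧ (16 * D + 8 : ℝ) < q.2 :=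
    ((eventually_lt_nhds (show (0 : ℝ) < 1 by norm_num)).filter_mono nhdsWithin_le_nhds).prod_mk
      (eventually_gt_atTop _)
  filter_upwards [h1] with q hq
  have hm : MeasurableSet {t : ℝ | q.1 < |t| ∧ |t| < q.2} :=
    (measurableSet_lt measurable_const measurable_id.abs).inter
      (measurableSet_lt measurable_id.abs measurable_const)
  refine (integral_ofReal (𝕜 := ℂ)).symm.trans ?_
  rw [trunc, setIntegral_eq_integral_of_forall_compl_eq_zero]
  · refine integral_congr_ae (Eventually.of_forall fun t => ?_)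
    simp [combS_apply, kern]
  · intro t ht
    have hk : kern A S x t = 0 := by
      by_contra hc
      obtain ⟨a, b⟩ := kern_support hA hS hc
      refine ht ⟨?_, ?_⟩ <;> rw [abs_of_pos (by linarith)] <;> linarith [hq.1, hq.2]
    have : ((kern A S x t : ℝ) : ℂ) = 0 := by rw [hk]; simp
    simpa [combS_apply, kern] using this

/-- Half width of the good intervals. -/
lemma comb_eq_one {A : Finset ℤ} {s a : ℤ} (ha : a ∈ A) {y : ℝ}
    (hy : |y - ((a - s : ℤ) : ℝ)| ≤ 1 / 4) : 1 ≤ comb A s y := by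
  have h1 : bump (y - ((a - s : ℤ) : ℝ)) = 1 :=
    bump.one_of_mem_closedBall (by rw [Metric.mem_closedBall, Real.dist_eq, sub_zero]; exact hy)
  rw [← h1]
  exact Finset.single_le_sum (f := fun b => bump (y - ((b - s : ℤ) : ℝ)))
    (fun b _ => bump.nonneg) ha

lemma kern_integral_ge {A : Fin 3 → Finset ℤ} {S : ℤ} {D : ℕ}
    (hA : ∀ i, ∀ a ∈ A i, |a| ≤ (4 * D : ℕ)) (hS : S = 8 * D + 4) (x : ℤ) (T : Finset ℤ)
    (hT : ∀ t ∈ T, x - t ∈ A 0 ∧ x - 2 * t ∈ A 1 ∧ x - 3 * t ∈ A 2) {y : ℝ}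
    (hy : |y - x| ≤ 1 / 20) :
    (T.card : ℝ) * (1 / 10) / (16 * D + 8) ≤ ∫ t, kern A S y t := by
  have hint := kern_integrable hA hS y
  set I : ℤ → Set ℝ := fun t => Metric.closedBall ((t + S : ℤ) : ℝ) (1 / 20)
  have hdisj : (T : Set ℤ).PairwiseDisjoint I := by
    intro a _ b _ hab
    refine Metric.closedBall_disjoint_closedBall ?_
    rw [Real.dist_eq]
    have h2 : (1 : ℝ) ≤ |((a - b : ℤ) : ℝ)| := by exact_mod_cast Int.one_le_abs (sub_ne_zero.2 hab)
    push_cast at h2 ⊢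
    rw [add_sub_add_right_eq_sub]
    linarith
  have hpt : ∀ t ∈ T, ∀ u ∈ I t, 1 / (16 * D + 8 : ℝ) ≤ kern A S y u := by
    intro t ht u hu
    obtain ⟨h0, h1, h2⟩ := hT t ht
    simp only [I, Metric.mem_closedBall, Real.dist_eq, Int.cast_add] at hu
    rw [abs_le] at hu hy
    have e0 : 1 ≤ comb (A 0) S (y - u) := comb_eq_one h0 (by
      push_cast; rw [abs_le]; constructor <;> linarith [hu.1, hu.2, hy.1, hy.2])
    have e1 : 1 ≤ comb (A 1) (2 * S) (y - 2 * u) := comb_eq_one h1 (by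
      push_cast; rw [abs_le]; constructor <;> linarith [hu.1, hu.2, hy.1, hy.2])
    have e2 : 1 ≤ comb (A 2) (3 * S) (y - 3 * u) := comb_eq_one h2 (by
      push_cast; rw [abs_le]; constructor <;> linarith [hu.1, hu.2, hy.1, hy.2])
    have hprod : 1 ≤ comb (A 0) S (y - u) * comb (A 1) (2 * S) (y - 2 * u) *
        comb (A 2) (3 * S) (y - 3 * u) := one_le_mul_of_one_le_of_one_le
      (one_le_mul_of_one_le_of_one_le e0 e1) e2
    have hne : kern A S y u ≠ 0 := by
      have hupos : u ≠ 0 := by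
        have ha : |(x : ℝ) - t| ≤ 4 * D := by exact_mod_cast hA 0 _ h0
        have hb : |(x : ℝ) - 2 * t| ≤ 4 * D := by exact_mod_cast hA 1 _ h1
        have hS' : (S : ℝ) = 8 * D + 4 := by exact_mod_cast hS
        rw [abs_le] at ha hb
        intro h
        linarith [ha.1, ha.2, hb.1, hb.2, hu.1, hu.2]
      exact div_ne_zero (by linarith) hupos
    obtain ⟨hu1, hu2⟩ := kern_support hA hS hne
    calc 1 / (16 * D + 8 : ℝ) ≤ 1 / u := one_div_le_one_div_of_le (by linarith) hu2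
      _ ≤ _ := by unfold kern; exact (div_le_div_iff_of_pos_right (by linarith)).2 hprod
  have hnn : ∀ u, 0 ≤ kern A S y u := by
    intro u
    by_cases h : kern A S y u = 0
    · rw [h]
    · obtain ⟨hu1, -⟩ := kern_support hA hS h
      exact div_nonneg (mul_nonneg (mul_nonneg (comb_nonneg _ _ _) (comb_nonneg _ _ _))
        (comb_nonneg _ _ _)) (by linarith)
  calc (T.card : ℝ) * (1 / 10) / (16 * D + 8)
      = ∑ t ∈ T, (1 / 10) * (1 / (16 * D + 8 : ℝ)) := by
        rw [Finset.sum_const, nsmul_eq_mul]; ring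
    _ ≤ ∑ t ∈ T, ∫ u in I t, kern A S y u := by
        refine Finset.sum_le_sum fun t ht => ?_
        calc (1 / 10 : ℝ) * (1 / (16 * D + 8)) = ∫ _ in I t, 1 / (16 * D + 8 : ℝ) := by
              rw [setIntegral_const, smul_eq_mul, measureReal_def, Real.volume_closedBall,
                ENNReal.toReal_ofReal (by norm_num)]
              norm_num
          _ ≤ _ := setIntegral_mono_on (integrableOn_const (by simp only [I, Real.volume_closedBall]; exact ENNReal.ofReal_ne_top))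
              hint.integrableOn measurableSet_closedBall (hpt t ht)
    _ = ∫ u in ⋃ t ∈ T, I t, kern A S y u :=
        (integral_biUnion_finset T (fun _ _ => measurableSet_closedBall) hdisj
          (fun _ _ => hint.integrableOn)).symm
    _ ≤ _ := setIntegral_le_integral hint (Eventually.of_forall hnn)

/-- The basic lower bound: a configuration `G` of pairs `(x,t)` with coordinates at most `D`
in absolute value and at most `M` values of `t` above every `x`. -/
theorem config_lower {r : ℝ} (hr : 0 < r) (hr1 : r ≤ 1) (G : Finset (ℤ × ℤ)) (D : ℕ) (M : ℝ)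
    (hD : ∀ z ∈ G, |z.1| ≤ (D : ℤ) ∧ |z.2| ≤ (D : ℤ))
    (hM : ∀ x, ((G.filter fun z => z.1 = x).card : ℝ) ≤ M) (hM0 : 0 < M) :
    ∃ f₁ f₂ f₃ : 𝓢(ℝ, ℂ), ∃ g : ℝ → ℂ,
      (∀ x, Tendsto (fun q : ℝ × ℝ => trunc f₁ f₂ f₃ q.1 q.2 x) ((𝓝[>] 0) ×ˢ atTop) (𝓝 (g x))) ∧
      (∀ p : ℝ, 0 < p →
        eLpNorm f₁ (ENNReal.ofReal p) volume ≤
            ENNReal.ofReal (((G.image fun z => z.1 - z.2).card : ℝ) ^ (1 / p)) ∧
        eLpNorm f₂ (ENNReal.ofReal p) volume ≤
            ENNReal.ofReal (((G.image fun z => z.1 - 2 * z.2).card : ℝ) ^ (1 / p)) ∧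
        eLpNorm f₃ (ENNReal.ofReal p) volume ≤
            ENNReal.ofReal (((G.image fun z => z.1 - 3 * z.2).card : ℝ) ^ (1 / p))) ∧
      ENNReal.ofReal ((((1 / 10 : ℝ) * G.card * M ^ (r - 1))) ^ (1 / r) *
          ((1 / 10) / (16 * D + 8))) ≤ eLpNorm g (ENNReal.ofReal r) volume := by
  set A : Fin 3 → Finset ℤ := ![G.image fun z => z.1 - z.2, G.image fun z => z.1 - 2 * z.2,
    G.image fun z => z.1 - 3 * z.2] with hAdef
  set S : ℤ := 8 * D + 4 with hS
  have hA : ∀ i, ∀ a ∈ A i, |a| ≤ ((4 * D : ℕ) : ℤ) := by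
    intro i a ha
    fin_cases i <;>
    · simp [hAdef] at ha
      obtain ⟨u, v, hz, rfl⟩ := ha
      obtain ⟨hu, hv⟩ := hD _ hz
      rw [abs_le] at hu hv ⊢
      push_cast
      constructor <;> linarith [hu.1, hu.2, hv.1, hv.2]
  refine ⟨combS (A 0) S, combS (A 1) (2 * S), combS (A 2) (3 * S),
    fun y => ((∫ t, kern A S y t : ℝ) : ℂ), tendsto_trunc hA hS, fun p hp =>
      ⟨eLpNorm_combS_le _ _ hp, eLpNorm_combS_le _ _ hp, eLpNorm_combS_le _ _ hp⟩, ?_⟩
  set κ : ℝ := (1 / 10) / (16 * D + 8) with hκ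
  have hκ0 : 0 < κ := by rw [hκ]; positivity
  set X := G.image Prod.fst
  set m : ℤ → ℝ := fun x => ((G.filter fun z => z.1 = x).card : ℝ) with hm
  have hm1 : ∀ x ∈ X, 1 ≤ m x := by
    intro x hx
    obtain ⟨z, hz, rfl⟩ := Finset.mem_image.1 hx
    simp only [hm, Nat.one_le_cast, Finset.one_le_card]
    exact ⟨z, Finset.mem_filter.2 ⟨hz, rfl⟩⟩
  have hlow : ∀ x ∈ X, ∀ y ∈ Metric.closedBall (x : ℝ) (1 / 20),
      ENNReal.ofReal ((m x * κ) ^ r) ≤ ‖((∫ t, kern A S y t : ℝ) : ℂ)‖ₑ ^ r := by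
    intro x _ y hy
    set T := (G.filter fun z => z.1 = x).image Prod.snd
    have hTc : (T.card : ℝ) = m x := by
      simp only [hm, Nat.cast_inj]
      refine Finset.card_image_of_injOn fun a ha b hb h => ?_
      exact Prod.ext ((Finset.mem_filter.1 ha).2.trans (Finset.mem_filter.1 hb).2.symm) h
    have hT : ∀ t ∈ T, x - t ∈ A 0 ∧ x - 2 * t ∈ A 1 ∧ x - 3 * t ∈ A 2 := by
      intro t ht
      obtain ⟨z, hz, rfl⟩ := Finset.mem_image.1 ht
      obtain ⟨hzG, hzx⟩ := Finset.mem_filter.1 hz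
      subst hzx
      simp only [hAdef]
      exact ⟨Finset.mem_image_of_mem _ hzG, Finset.mem_image_of_mem _ hzG,
        Finset.mem_image_of_mem _ hzG⟩
    have h := kern_integral_ge hA hS x T hT
      (by rwa [Metric.mem_closedBall, Real.dist_eq] at hy)
    rw [hTc] at h
    have h0 : 0 ≤ m x * κ := mul_nonneg (Nat.cast_nonneg _) hκ0.le
    rw [← ofReal_norm, ENNReal.ofReal_rpow_of_nonneg (norm_nonneg _) hr.le]
    refine ENNReal.ofReal_le_ofReal (Real.rpow_le_rpow h0 ?_ hr.le)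
    rw [Complex.norm_real, Real.norm_eq_abs]
    refine le_trans (le_of_eq ?_) (h.trans (le_abs_self _))
    rw [hκ]; ring
  have hdisj : (X : Set ℤ).PairwiseDisjoint fun x : ℤ => Metric.closedBall (x : ℝ) (1 / 20) := by
    intro a _ b _ hab
    refine Metric.closedBall_disjoint_closedBall ?_
    rw [Real.dist_eq]
    have h2 : (1 : ℝ) ≤ |((a - b : ℤ) : ℝ)| := by exact_mod_cast Int.one_le_abs (sub_ne_zero.2 hab)
    push_cast at h2
    linarith
  have hsum : (1 / 10 : ℝ) * G.card * M ^ (r - 1) * κ ^ r ≤ ∑ x ∈ X, (1 / 10) * (m x * κ) ^ r := by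
    have hG : (G.card : ℝ) = ∑ x ∈ X, m x := by
      simp only [hm, ← Nat.cast_sum, Nat.cast_inj]
      exact Finset.card_eq_sum_card_image _ _
    rw [hG, Finset.mul_sum, Finset.sum_mul, Finset.sum_mul]
    refine Finset.sum_le_sum fun x hx => ?_
    have hmx : 0 < m x := lt_of_lt_of_le one_pos (hm1 x hx)
    rw [Real.mul_rpow hmx.le hκ0.le, ← mul_assoc]
    refine mul_le_mul_of_nonneg_right ?_ (Real.rpow_nonneg hκ0.le _)
    rw [mul_assoc]
    refine mul_le_mul_of_nonneg_left ?_ (by norm_num)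
    have : M ^ (r - 1) ≤ (m x) ^ (r - 1) := Real.rpow_le_rpow_of_nonpos hmx (hM x) (by linarith)
    calc m x * M ^ (r - 1) ≤ m x * m x ^ (r - 1) := mul_le_mul_of_nonneg_left this hmx.le
      _ = m x ^ r := by
          nth_rewrite 1 [← Real.rpow_one (m x)]
          rw [← Real.rpow_add hmx]
          ring_nf
  rw [eLpNorm_eq_lintegral_rpow_enorm_toReal (ENNReal.ofReal_pos.2 hr).ne' ENNReal.ofReal_ne_top,
    ENNReal.toReal_ofReal hr.le]
  have h0 : 0 ≤ (1 / 10 : ℝ) * G.card * M ^ (r - 1) := by positivity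
  have he : (((1 / 10 : ℝ) * G.card * M ^ (r - 1)) ^ (1 / r) * κ) =
      ((1 / 10 : ℝ) * G.card * M ^ (r - 1) * κ ^ r) ^ (1 / r) := by
    rw [Real.mul_rpow h0 (Real.rpow_nonneg hκ0.le _), ← Real.rpow_mul hκ0.le,
      mul_one_div_cancel hr.ne', Real.rpow_one]
  rw [he, ← ENNReal.ofReal_rpow_of_nonneg (mul_nonneg h0 (Real.rpow_nonneg hκ0.le _))
    (by positivity)]
  refine ENNReal.rpow_le_rpow ?_ (by positivity)
  calc ENNReal.ofReal ((1 / 10 : ℝ) * G.card * M ^ (r - 1) * κ ^ r)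
      ≤ ENNReal.ofReal (∑ x ∈ X, (1 / 10) * (m x * κ) ^ r) := ENNReal.ofReal_le_ofReal hsum
    _ = ∑ x ∈ X, ∫⁻ _ in Metric.closedBall (x : ℝ) (1 / 20), ENNReal.ofReal ((m x * κ) ^ r) := by
        rw [ENNReal.ofReal_sum_of_nonneg fun x hx => by positivity]
        refine Finset.sum_congr rfl fun x hx => ?_
        rw [setLIntegral_const, Real.volume_closedBall, ← ENNReal.ofReal_mul' (by norm_num)]
        congr 1
        ring
    _ ≤ ∑ x ∈ X, ∫⁻ y in Metric.closedBall (x : ℝ) (1 / 20),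
          ‖((∫ t, kern A S y t : ℝ) : ℂ)‖ₑ ^ r := Finset.sum_le_sum fun x hx =>
        setLIntegral_mono' measurableSet_closedBall (hlow x hx)
    _ = ∫⁻ y in ⋃ x ∈ X, Metric.closedBall (x : ℝ) (1 / 20),
          ‖((∫ t, kern A S y t : ℝ) : ℂ)‖ₑ ^ r :=
        (lintegral_biUnion_finset hdisj (fun _ _ => measurableSet_closedBall) _).symm
    _ ≤ _ := setLIntegral_le_lintegral _ _

end Vale.Agent.P141
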