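import Mathlib

/-!
Definitions for the negative range of the trilinear Hilbert transform (P141).
-/

open MeasureTheory Filter Topology
open scoped SchwartzMap

namespace Vale.Agent.P141

/-- The truncated trilinear Hilbert transform with slopes 1, 2, 3. -/
noncomputable def trunc (f₁ f₂ f₃ : ℝ → ℂ) (ε R x : ℝ) : ℂ :=
  ∫ t in {t : ℝ | ε < |t| ∧ |t| < R}, f₁ (x - t) * f₂ (x - 2 * t) * f₃ (x - 3 * t) / (t : ℂ)

/-- For every constant some Schwartz triple has a pointwise limit of the truncations whose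
`L^r` norm exceeds the constant times the product of the `L^p` norms. -/
def UnboundedAt (p₁ p₂ p₃ r : ℝ) : Prop :=
  ∀ C : ℝ, ∃ f₁ f₂ f₃ : 𝓢(ℝ, ℂ), ∃ g : ℝ → ℂ,
    (∀ x, Tendsto (fun q : ℝ × ℝ => trunc f₁ f₂ f₃ q.1 q.2 x) ((𝓝[>] 0) ×ˢ atTop) (𝓝 (g x))) ∧
    ENNReal.ofReal C * eLpNorm f₁ (ENNReal.ofReal p₁) volume *
        eLpNorm f₂ (ENNReal.ofReal p₂) volume * eLpNorm f₃ (ENNReal.ofReal p₃) volume <
      eLpNorm g (ENNReal.ofReal r) volume

/-- The Shannon entropy (natural logarithm) of the image under `π` of the law `q` on `G`. -/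
noncomputable def ent (G : Finset (ℤ × ℤ)) (q : ℤ × ℤ → ℝ) {α : Type} [DecidableEq α]
    (π : ℤ × ℤ → α) : ℝ :=
  ∑ v ∈ G.image π, Real.negMulLog (∑ z ∈ G with π z = v, q z)

/-- The law `q` on the finite set `G` of pairs `(x,t)`. -/
def IsLaw (G : Finset (ℤ × ℤ)) (q : ℤ × ℤ → ℝ) : Prop :=
  (∀ z ∈ G, 0 ≤ q z) ∧ ∑ z ∈ G, q z = 1

end Vale.Agent.P141
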