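import Mathlib

/-!
A linear hashing of a finite set of pairs of integer vectors into pairs of integers.
-/

namespace Vale.Agent.P141

open Finset

/-- The linear form with coefficients `c`. -/
def lform {n K : ℕ} (c : Fin n → Fin K) (u : Fin n → ℤ) : ℤ := ∑ k, (c k : ℤ) * u k

lemma lform_sub {n K : ℕ} (c : Fin n → Fin K) (u v : Fin n → ℤ) :
    lform c (u - v) = lform c u - lform c v := by
  simp [lform, mul_sub]

lemma card_lform_zero {n K : ℕ} {u : Fin n → ℤ} (hu : u ≠ 0) :
    K * (univ.filter fun c : Fin n → Fin K => lform c u = 0).card ≤ K ^ n := by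
  classical
  obtain ⟨k₀, hk₀⟩ : ∃ k, u k ≠ 0 := Function.ne_iff.1 hu
  have h : ((univ : Finset (Fin K)) ×ˢ univ.filter fun c : Fin n → Fin K => lform c u = 0).card ≤
      (univ : Finset (Fin n → Fin K)).card := by
    refine card_le_card_of_injOn (fun p => Function.update p.2 k₀ p.1)
      (fun p _ => mem_univ _) ?_
    rintro ⟨j, c⟩ hc ⟨j', c'⟩ hc' heq
    simp only [coe_product, Set.mem_prod, mem_coe, mem_univ, mem_filter, true_and] at hc hc'
    have hj : j = j' := by simpa using congrFun heq k₀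
    have hrest : ∀ k, k ≠ k₀ → c k = c' k := fun k hk => by
      simpa [Function.update_of_ne hk] using congrFun heq k
    refine Prod.ext hj ?_
    funext k
    by_cases hk : k = k₀
    · subst hk
      have h1 : ∑ m, ((c m : ℤ) - (c' m : ℤ)) * u m = 0 := by
        simp only [sub_mul, sum_sub_distrib]
        rw [show ∑ m, (c m : ℤ) * u m = 0 from hc, show ∑ m, (c' m : ℤ) * u m = 0 from hc',
          sub_zero]
      rw [sum_eq_single k (fun m _ hm => by rw [hrest m hm, sub_self, zero_mul])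
        (fun h => absurd (mem_univ k) h)] at h1
      rcases mul_eq_zero.1 h1 with h2 | h2
      · exact Fin.ext (show (c k : ℕ) = (c' k : ℕ) by omega)
      · exact absurd h2 hk₀
    · exact hrest k hk
  simpa [card_product] using h

lemma abs_lform_le {n K : ℕ} (c : Fin n → Fin K) {u : Fin n → ℤ} {R : ℕ}
    (hu : ∀ k, |u k| ≤ (R : ℤ)) : |lform c u| ≤ ((n * K * R : ℕ) : ℤ) := by
  calc |lform c u| ≤ ∑ k, |(c k : ℤ) * u k| := abs_sum_le_sum_abs _ _
    _ ≤ ∑ _k : Fin n, (K : ℤ) * R := sum_le_sum fun k _ => by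
        rw [abs_mul, Nat.abs_cast]
        exact mul_le_mul (by exact_mod_cast (c k).isLt.le) (hu k) (abs_nonneg _) (by positivity)
    _ = _ := by simp [mul_assoc]

theorem exists_hash {n : ℕ} (W : Finset ((Fin n → ℤ) × (Fin n → ℤ))) (R M K : ℕ)
    (hR : ∀ w ∈ W, ∀ k, |w.1 k| ≤ (R : ℤ) ∧ |w.2 k| ≤ (R : ℤ))
    (hM : ∀ x, (W.filter fun w => w.1 = x).card ≤ M)
    (hK : 4 * ((W.image Prod.fst).card + M) ≤ K) :
    ∃ G : Finset (ℤ × ℤ), 3 * W.card ≤ 4 * G.card ∧
      (∀ z ∈ G, |z.1| ≤ ((n * K * R : ℕ) : ℤ) ∧ |z.2| ≤ ((n * K * R : ℕ) : ℤ)) ∧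
      (∀ x, (G.filter fun z => z.1 = x).card ≤ M) ∧
      (∀ i : ℤ, (G.image fun z => z.1 - i * z.2).card ≤
        (W.image fun w => w.1 - i • w.2).card) := by
  classical
  rcases W.eq_empty_or_nonempty with hW | ⟨w₀, hw₀⟩
  · exact ⟨∅, by simp [hW], by simp, by simp, by simp⟩
  have hM0 : 0 < M :=
    lt_of_lt_of_le (card_pos.2 (⟨w₀, mem_filter.2 ⟨hw₀, rfl⟩⟩ :
      (W.filter fun w => w.1 = w₀.1).Nonempty)) (hM w₀.1)
  have hK0 : 0 < K := by omega
  set Bad : (Fin n → Fin K) → (Fin n → ℤ) × (Fin n → ℤ) → Prop := fun c w =>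
    (∃ x ∈ W.image Prod.fst, x ≠ w.1 ∧ lform c x = lform c w.1) ∨
    (∃ v ∈ W.filter (fun v => v.1 = w.1), v.2 ≠ w.2 ∧ lform c v.2 = lform c w.2) with hBad
  have hzero : ∀ a b : Fin n → ℤ, a ≠ b →
      K * (univ.filter fun c : Fin n → Fin K => lform c a = lform c b).card ≤ K ^ n := by
    intro a b hab
    refine le_trans (le_of_eq ?_) (card_lform_zero (K := K) (sub_ne_zero.2 hab))
    congr 2
    ext c
    simp [lform_sub, sub_eq_zero]
  have hbad : ∀ w ∈ W, 4 * (univ.filter fun c => Bad c w).card ≤ K ^ n := by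
    intro w hw
    set U₁ := (W.image Prod.fst).filter fun x => x ≠ w.1
    set U₂ := (W.filter fun v => v.1 = w.1).filter fun v => v.2 ≠ w.2
    have hsub : (univ.filter fun c => Bad c w) ⊆
        (U₁.biUnion fun x => univ.filter fun c => lform c x = lform c w.1) ∪
        (U₂.biUnion fun v => univ.filter fun c => lform c v.2 = lform c w.2) := by
      intro c hc
      rcases (mem_filter.1 hc).2 with ⟨x, hx, hne, he⟩ | ⟨v, hv, hne, he⟩
      · exact mem_union_left _ (mem_biUnion.2 ⟨x, mem_filter.2 ⟨hx, hne⟩, by simp [he]⟩)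
      · exact mem_union_right _ (mem_biUnion.2 ⟨v, mem_filter.2 ⟨hv, hne⟩, by simp [he]⟩)
    have h1 : K * (univ.filter fun c => Bad c w).card ≤ (U₁.card + U₂.card) * K ^ n := by
      refine le_trans (Nat.mul_le_mul_left _
        ((card_le_card hsub).trans ((card_union_le _ _).trans
          (Nat.add_le_add card_biUnion_le card_biUnion_le)))) ?_
      rw [mul_add, mul_sum, mul_sum, add_mul, ← smul_eq_mul U₁.card, ← smul_eq_mul U₂.card,
        ← sum_const, ← sum_const]
      exact Nat.add_le_add (sum_le_sum fun x hx => hzero _ _ (mem_filter.1 hx).2)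
        (sum_le_sum fun v hv => hzero _ _ (mem_filter.1 hv).2)
    have h2 : 4 * (U₁.card + U₂.card) ≤ K := by
      have e1 : U₁.card ≤ (W.image Prod.fst).card := card_filter_le _ _
      have e2 : U₂.card ≤ M := (card_filter_le _ _).trans (hM w.1)
      omega
    have h3 : K * (4 * (univ.filter fun c => Bad c w).card) ≤ K * K ^ n := by
      calc K * (4 * (univ.filter fun c => Bad c w).card)
          = 4 * (K * (univ.filter fun c => Bad c w).card) := by ring
        _ ≤ 4 * ((U₁.card + U₂.card) * K ^ n) := Nat.mul_le_mul_left _ h1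
        _ = 4 * (U₁.card + U₂.card) * K ^ n := by ring
        _ ≤ K * K ^ n := Nat.mul_le_mul_right _ h2
    exact Nat.le_of_mul_le_mul_left h3 hK0
  obtain ⟨c, hc⟩ : ∃ c : Fin n → Fin K, 4 * (W.filter fun w => Bad c w).card ≤ W.card := by
    by_contra hcon
    push Not at hcon
    have hne : Nonempty (Fin n → Fin K) := ⟨fun _ => ⟨0, hK0⟩⟩
    have h1 : ∑ _c : Fin n → Fin K, W.card < ∑ c, 4 * (W.filter fun w => Bad c w).card :=
      sum_lt_sum_of_nonempty univ_nonempty fun c _ => hcon c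
    have h2 : ∑ c, (W.filter fun w => Bad c w).card =
        ∑ w ∈ W, (univ.filter fun c : Fin n → Fin K => Bad c w).card := by
      simp only [card_filter]
      exact sum_comm
    rw [← mul_sum, h2, mul_sum, sum_const, card_univ, Fintype.card_fun, Fintype.card_fin,
      Fintype.card_fin, smul_eq_mul] at h1
    have h3 : ∑ w ∈ W, 4 * (univ.filter fun c : Fin n → Fin K => Bad c w).card ≤ W.card * K ^ n :=
      (sum_le_sum hbad).trans (by rw [sum_const, smul_eq_mul])
    rw [mul_comm (K ^ n)] at h1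
    omega
  set Good := W.filter fun w => ¬ Bad c w
  set f : (Fin n → ℤ) × (Fin n → ℤ) → ℤ × ℤ := fun w => (lform c w.1, lform c w.2)
  have hx : ∀ w ∈ Good, ∀ v ∈ W, lform c v.1 = lform c w.1 → v.1 = w.1 := by
    intro w hw v hv he
    by_contra hne
    exact (mem_filter.1 hw).2 (Or.inl ⟨v.1, mem_image_of_mem _ hv, hne, he⟩)
  have hinj : Set.InjOn f Good := by
    intro w hw v hv he
    simp only [f, Prod.ext_iff] at he
    have h1 : v.1 = w.1 := hx w hw v (mem_filter.1 hv).1 he.1.symm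
    refine Prod.ext h1.symm ?_
    by_contra hne
    exact (mem_filter.1 hw).2
      (Or.inr ⟨v, mem_filter.2 ⟨(mem_filter.1 hv).1, h1⟩, fun h => hne h.symm, he.2.symm⟩)
  refine ⟨Good.image f, ?_, ?_, ?_, ?_⟩
  · rw [card_image_of_injOn hinj]
    have h := card_filter_add_card_filter_not (s := W) (fun w => Bad c w)
    change (W.filter fun w => Bad c w).card + Good.card = W.card at h
    omega
  · intro z hz
    obtain ⟨w, hw, rfl⟩ := mem_image.1 hz
    exact ⟨abs_lform_le c fun k => (hR w (mem_filter.1 hw).1 k).1,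
      abs_lform_le c fun k => (hR w (mem_filter.1 hw).1 k).2⟩
  · intro x
    rcases ((Good.image f).filter fun z => z.1 = x).eq_empty_or_nonempty with h | ⟨z, hz⟩
    · rw [h]; simp
    obtain ⟨hz1, hz2⟩ := mem_filter.1 hz
    obtain ⟨w, hw, rfl⟩ := mem_image.1 hz1
    refine le_trans (card_le_card (t := (W.filter fun v => v.1 = w.1).image f) ?_)
      (card_image_le.trans (hM w.1))
    intro y hy
    obtain ⟨hy1, hy2⟩ := mem_filter.1 hy
    obtain ⟨v, hv, rfl⟩ := mem_image.1 hy1
    exact mem_image_of_mem _ (mem_filter.2 ⟨(mem_filter.1 hv).1,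
      hx w hw v (mem_filter.1 hv).1 (hy2.trans hz2.symm)⟩)
  · intro i
    refine le_trans (card_le_card (t := (W.image fun w => w.1 - i • w.2).image (lform c)) ?_)
      card_image_le
    intro a ha
    simp only [mem_image] at ha ⊢
    obtain ⟨z, ⟨w, hw, rfl⟩, rfl⟩ := ha
    refine ⟨w.1 - i • w.2, ⟨w, (mem_filter.1 hw).1, rfl⟩, ?_⟩
    simp only [f, lform_sub]
    congr 1
    simp only [lform, mul_sum, Pi.smul_apply, smul_eq_mul]
    exact sum_congr rfl fun k _ => by ring

end Vale.Agent.P141
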