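import Mathlib

/-!
Typical sequences of a finite law: an elementary weak law and the resulting counts.
-/

namespace Vale.Agent.P141

open Finset

variable {Z : Type*} [Fintype Z]

/-- The product weight of a word. -/
def wt (q : Z → ℝ) {n : ℕ} (v : Fin n → Z) : ℝ := ∏ k, q (v k)

lemma sum_wt (q : Z → ℝ) (hq1 : ∑ z, q z = 1) (n : ℕ) : ∑ v : Fin n → Z, wt q v = 1 := by
  classical
  simp only [wt]
  rw [← Fintype.prod_sum, hq1, prod_const_one]

lemma sum_succ_split {n : ℕ} (F : (Fin (n + 1) → Z) → ℝ) :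
    ∑ v, F v = ∑ z, ∑ v : Fin n → Z, F (Fin.cons z v) := by
  rw [← (Fin.consEquiv fun _ : Fin (n + 1) => Z).sum_comp, Fintype.sum_prod_type]
  rfl

lemma wt_cons (q : Z → ℝ) {n : ℕ} (z : Z) (v : Fin n → Z) :
    wt q (Fin.cons z v) = q z * wt q v := by
  simp [wt, Fin.prod_univ_succ]

lemma mean_sum (q g : Z → ℝ) (hq1 : ∑ z, q z = 1) (hg : ∑ z, q z * g z = 0) (n : ℕ) :
    ∑ v : Fin n → Z, wt q v * ∑ k, g (v k) = 0 := by
  induction n with
  | zero => simp
  | succ n ih =>
    rw [sum_succ_split]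
    simp only [wt_cons, Fin.sum_univ_succ, Fin.cons_zero, Fin.cons_succ]
    calc ∑ z, ∑ v : Fin n → Z, q z * wt q v * (g z + ∑ k, g (v k))
        = (∑ z, q z * g z) * ∑ v : Fin n → Z, wt q v +
          (∑ z, q z) * ∑ v : Fin n → Z, wt q v * ∑ k, g (v k) := by
          rw [sum_mul, sum_mul, ← sum_add_distrib]
          refine sum_congr rfl fun z _ => ?_
          rw [mul_sum, mul_sum, ← sum_add_distrib]
          exact sum_congr rfl fun v _ => by ring
      _ = 0 := by rw [hg, ih]; ring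

lemma var_sum (q g : Z → ℝ) (hq1 : ∑ z, q z = 1) (hg : ∑ z, q z * g z = 0) (n : ℕ) :
    ∑ v : Fin n → Z, wt q v * (∑ k, g (v k)) ^ 2 = n * ∑ z, q z * g z ^ 2 := by
  induction n with
  | zero => simp
  | succ n ih =>
    rw [sum_succ_split]
    simp only [wt_cons, Fin.sum_univ_succ, Fin.cons_zero, Fin.cons_succ]
    calc ∑ z, ∑ v : Fin n → Z, q z * wt q v * (g z + ∑ k, g (v k)) ^ 2
        = (∑ z, q z * g z ^ 2) * ∑ v : Fin n → Z, wt q v +
          2 * (∑ z, q z * g z) * ∑ v : Fin n → Z, wt q v * ∑ k, g (v k) +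
          (∑ z, q z) * ∑ v : Fin n → Z, wt q v * (∑ k, g (v k)) ^ 2 := by
          rw [mul_sum univ (fun z => q z * g z) 2, sum_mul, sum_mul, sum_mul, ← sum_add_distrib,
            ← sum_add_distrib]
          refine sum_congr rfl fun z _ => ?_
          rw [mul_sum, mul_sum, mul_sum, ← sum_add_distrib, ← sum_add_distrib]
          exact sum_congr rfl fun v _ => by ring
      _ = _ := by rw [sum_wt q hq1, mean_sum q g hq1 hg, hq1, ih]; push_cast; ring

variable {α : Type*} [DecidableEq α]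

/-- The mass of a value of `π`. -/
def mass (q : Z → ℝ) (π : Z → α) (a : α) : ℝ := ∑ z with π z = a, q z

/-- The information content of the value of `π` at a point. -/
noncomputable def info (q : Z → ℝ) (π : Z → α) (z : Z) : ℝ := -Real.log (mass q π (π z))

/-- The entropy of `π`. -/
noncomputable def enty (q : Z → ℝ) (π : Z → α) : ℝ := ∑ z, q z * info q π z

lemma le_mass (q : Z → ℝ) (hq : ∀ z, 0 < q z) (π : Z → α) (z : Z) :
    q z ≤ mass q π (π z) := by
  unfold mass
  exact single_le_sum (f := q) (fun w _ => (hq w).le) (by simp)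

lemma mass_pos (q : Z → ℝ) (hq : ∀ z, 0 < q z) (π : Z → α) (z : Z) :
    0 < mass q π (π z) := lt_of_lt_of_le (hq z) (le_mass q hq π z)

lemma mass_nonneg (q : Z → ℝ) (hq : ∀ z, 0 < q z) (π : Z → α) (a : α) : 0 ≤ mass q π a :=
  sum_nonneg fun w _ => (hq w).le

lemma sum_mass (q : Z → ℝ) (hq1 : ∑ z, q z = 1) (π : Z → α) :
    ∑ a ∈ univ.image π, mass q π a = 1 := by
  unfold mass
  rw [sum_fiberwise_of_maps_to (fun z hz => mem_image_of_mem π hz), hq1]

lemma mass_of_injective (q : Z → ℝ) (π : Z → α) (hπ : Function.Injective π) (z : Z) :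
    mass q π (π z) = q z := by
  unfold mass
  rw [sum_eq_single_of_mem z (by simp) fun w hw hne => absurd (hπ (mem_filter.1 hw).2) hne]

/-- Subadditivity for a jointly injective pair. -/
lemma enty_le_add {β γ : Type*} [DecidableEq β] [DecidableEq γ] (q : Z → ℝ) (hq : ∀ z, 0 < q z)
    (hq1 : ∑ z, q z = 1) (π : Z → α) (a : Z → β) (b : Z → γ) (hπ : Function.Injective π)
    (hab : Function.Injective fun z => (a z, b z)) : enty q π ≤ enty q a + enty q b := by
  classical
  have h : ∀ z, q z * info q π z - (q z * info q a z + q z * info q b z) ≤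
      mass q a (a z) * mass q b (b z) - q z := by
    intro z
    simp only [info, mass_of_injective q π hπ]
    have ha := mass_pos q hq a z
    have hb := mass_pos q hq b z
    have hl := Real.log_le_sub_one_of_pos (div_pos (mul_pos ha hb) (hq z))
    rw [Real.log_div (mul_pos ha hb).ne' (hq z).ne', Real.log_mul ha.ne' hb.ne'] at hl
    have h2 := mul_le_mul_of_nonneg_left hl (hq z).le
    have h3 : q z * (mass q a (a z) * mass q b (b z) / q z - 1) =
        mass q a (a z) * mass q b (b z) - q z := by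
      field_simp [(hq z).ne']
    rw [h3] at h2
    linarith
  have hs := sum_le_sum (s := univ) fun z _ => h z
  simp only [sum_sub_distrib, sum_add_distrib, hq1] at hs
  have hle : ∑ z, mass q a (a z) * mass q b (b z) ≤ 1 := by
    calc ∑ z, mass q a (a z) * mass q b (b z)
        = ∑ p ∈ univ.image (fun z => (a z, b z)), mass q a p.1 * mass q b p.2 := by
          rw [sum_image fun x _ y _ h => hab h]
      _ ≤ ∑ p ∈ univ.image a ×ˢ univ.image b, mass q a p.1 * mass q b p.2 := by
          refine sum_le_sum_of_subset_of_nonneg ?_ fun p _ _ =>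
            mul_nonneg (mass_nonneg q hq _ _) (mass_nonneg q hq _ _)
          intro p hp
          obtain ⟨z, -, rfl⟩ := mem_image.1 hp
          simp
      _ = 1 := by rw [sum_product, ← sum_mul_sum, sum_mass q hq1, sum_mass q hq1, one_mul]
  unfold enty
  linarith

lemma prod_mass_eq_exp (q : Z → ℝ) (hq : ∀ z, 0 < q z) (π : Z → α) {n : ℕ} (v : Fin n → Z) :
    ∏ k, mass q π (π (v k)) = Real.exp (-∑ k, info q π (v k)) := by
  rw [← sum_neg_distrib, Real.exp_sum]
  refine prod_congr rfl fun k _ => ?_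
  rw [info, neg_neg, Real.exp_log (mass_pos q hq π _)]

/-- The typical set for finitely many maps, the first one injective. -/
theorem exists_typical {ι : Type*} [Fintype ι] (q : Z → ℝ) (hq : ∀ z, 0 < q z)
    (hq1 : ∑ z, q z = 1) (π : ι → Z → α) (i₀ : ι) (hinj : Function.Injective (π i₀))
    {ε : ℝ} (hε : 0 < ε) :
    ∃ N : ℕ, ∀ n : ℕ, N ≤ n → ∃ T : Finset (Fin n → Z),
      (1 / 2) * Real.exp (n * (enty q (π i₀) - ε)) ≤ T.card ∧
      (∀ i, ((T.image fun v k => π i (v k)).card : ℝ) ≤ Real.exp (n * (enty q (π i) + ε))) ∧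
      (∀ i, ∀ a : Fin n → α, ((T.filter fun v => (fun k => π i (v k)) = a).card : ℝ) ≤
        Real.exp (n * (enty q (π i₀) - enty q (π i) + 2 * ε))) := by
  classical
  set dev : ι → Z → ℝ := fun i z => info q (π i) z - enty q (π i) with hdev
  have hdev0 : ∀ i, ∑ z, q z * dev i z = 0 := by
    intro i
    simp only [hdev, mul_sub, sum_sub_distrib, ← sum_mul, hq1, one_mul, enty, sub_self]
  set B := ∑ i, ∑ z, q z * dev i z ^ 2 with hB
  have hB0 : 0 ≤ B := sum_nonneg fun i _ => sum_nonneg fun z _ =>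
    mul_nonneg (hq z).le (sq_nonneg _)
  obtain ⟨N, hN⟩ := exists_nat_gt (2 * B / ε ^ 2)
  refine ⟨N + 1, fun n hn => ?_⟩
  have hn0 : (0 : ℝ) < n := by exact_mod_cast (by omega : 0 < n)
  have hnB : 2 * B ≤ ε ^ 2 * n := by
    have : (N : ℝ) ≤ n := by exact_mod_cast (by omega : N ≤ n)
    have h2 : 2 * B / ε ^ 2 ≤ n := le_trans hN.le this
    rw [div_le_iff₀ (by positivity)] at h2
    linarith
  set T := (univ : Finset (Fin n → Z)).filter fun v => ∀ i, |∑ k, dev i (v k)| ≤ ε * n with hT
  have hwt : ∀ v : Fin n → Z, 0 ≤ wt q v := fun v => prod_nonneg fun k _ => (hq _).le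
  have hbad : ∑ v ∈ univ.filter (fun v : Fin n → Z => ¬ ∀ i, |∑ k, dev i (v k)| ≤ ε * n),
      wt q v ≤ 1 / 2 := by
    have h1 : ∑ v ∈ univ.filter (fun v : Fin n → Z => ¬ ∀ i, |∑ k, dev i (v k)| ≤ ε * n),
        wt q v * (ε * n) ^ 2 ≤ ∑ v : Fin n → Z, ∑ i, wt q v * (∑ k, dev i (v k)) ^ 2 := by
      refine (sum_le_sum fun v hv => ?_).trans (sum_le_sum_of_subset_of_nonneg (subset_univ _)
        fun v _ _ => sum_nonneg fun i _ => mul_nonneg (hwt v) (sq_nonneg _))
      obtain ⟨i, hi⟩ := not_forall.1 (mem_filter.1 hv).2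
      refine le_trans ?_ (single_le_sum (f := fun i => wt q v * (∑ k, dev i (v k)) ^ 2)
        (fun i _ => mul_nonneg (hwt v) (sq_nonneg _)) (mem_univ i))
      refine mul_le_mul_of_nonneg_left ?_ (hwt v)
      rw [← sq_abs (∑ k, dev i (v k))]
      exact pow_le_pow_left₀ (by positivity) (not_le.1 hi).le 2
    rw [← sum_mul, sum_comm] at h1
    simp only [var_sum q _ hq1 (hdev0 _), ← mul_sum, ← hB] at h1
    by_contra hc
    rw [not_le] at hc
    have hpos : 0 < (ε * n) ^ 2 := by positivity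
    have h3 := mul_lt_mul_of_pos_right hc hpos
    have h4 := mul_le_mul_of_nonneg_right hnB hn0.le
    nlinarith [h1, h3, h4]
  have hmassT : 1 / 2 ≤ ∑ v ∈ T, wt q v := by
    have := sum_filter_add_sum_filter_not (univ : Finset (Fin n → Z))
      (fun v => ∀ i, |∑ k, dev i (v k)| ≤ ε * n) (wt q)
    rw [sum_wt q hq1, ← hT] at this
    linarith
  have htyp : ∀ v ∈ T, ∀ i,
      Real.exp (-(n * (enty q (π i) + ε))) ≤ ∏ k, mass q (π i) (π i (v k)) ∧
      ∏ k, mass q (π i) (π i (v k)) ≤ Real.exp (-(n * (enty q (π i) - ε))) := by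
    intro v hv i
    have h := abs_le.1 ((mem_filter.1 hv).2 i)
    simp only [hdev, sum_sub_distrib, sum_const, card_univ, Fintype.card_fin, nsmul_eq_mul] at h
    rw [prod_mass_eq_exp q hq]
    constructor <;> (apply Real.exp_le_exp.2; linarith [h.1, h.2])
  have hwteq : ∀ v : Fin n → Z, wt q v = ∏ k, mass q (π i₀) (π i₀ (v k)) := fun v =>
    prod_congr rfl fun k _ => (mass_of_injective q _ hinj _).symm
  refine ⟨T, ?_, fun i => ?_, fun i a => ?_⟩
  · have h : ∑ v ∈ T, wt q v ≤ T.card * Real.exp (-(n * (enty q (π i₀) - ε))) := by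
      rw [← nsmul_eq_mul, ← sum_const]
      exact sum_le_sum fun v hv => (hwteq v).le.trans (htyp v hv i₀).2
    rw [Real.exp_neg, ← div_eq_mul_inv] at h
    have h2 := hmassT.trans h
    rwa [le_div_iff₀ (Real.exp_pos _)] at h2
  · set P : (Fin n → α) → ℝ := fun a => ∏ k, mass q (π i) (a k)
    have h1 : ∑ a ∈ T.image (fun v k => π i (v k)), P a ≤ 1 := by
      refine (sum_le_sum_of_subset_of_nonneg
        (t := Fintype.piFinset fun _ : Fin n => univ.image (π i)) ?_
        fun a _ _ => prod_nonneg fun k _ => mass_nonneg q hq _ _).trans ?_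
      · intro a ha
        obtain ⟨v, -, rfl⟩ := mem_image.1 ha
        simp
      · rw [← prod_univ_sum (fun _ : Fin n => univ.image (π i)) (fun _ a => mass q (π i) a),
          sum_mass q hq1, prod_const_one]
    have h2 : (T.image fun v k => π i (v k)).card * Real.exp (-(n * (enty q (π i) + ε))) ≤
        ∑ a ∈ T.image (fun v k => π i (v k)), P a := by
      rw [← nsmul_eq_mul, ← sum_const]
      refine sum_le_sum fun a ha => ?_
      obtain ⟨v, hv, rfl⟩ := mem_image.1 ha
      exact (htyp v hv i).1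
    rw [Real.exp_neg, ← div_eq_mul_inv] at h2
    have h3 := h2.trans h1
    rwa [div_le_one (Real.exp_pos _)] at h3
  · set F := T.filter fun v => (fun k => π i (v k)) = a
    rcases F.eq_empty_or_nonempty with hF | ⟨v₀, hv₀⟩
    · rw [hF, card_empty, Nat.cast_zero]; positivity
    obtain ⟨hv₀T, hv₀a⟩ := mem_filter.1 hv₀
    have h1 : ∑ v ∈ F, wt q v ≤ ∏ k, mass q (π i) (a k) := by
      simp only [mass, wt]
      rw [prod_univ_sum]
      refine sum_le_sum_of_subset_of_nonneg ?_ fun v _ _ => prod_nonneg fun k _ => (hq _).le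
      intro v hv
      simp only [Fintype.mem_piFinset, mem_filter, mem_univ, true_and]
      exact fun k => congrFun (mem_filter.1 hv).2 k
    have h2 : F.card * Real.exp (-(n * (enty q (π i₀) + ε))) ≤ ∑ v ∈ F, wt q v := by
      rw [← nsmul_eq_mul, ← sum_const]
      exact sum_le_sum fun v hv => (htyp v (mem_filter.1 hv).1 i₀).1.trans (hwteq v).ge
    have h3 : ∏ k, mass q (π i) (a k) ≤ Real.exp (-(n * (enty q (π i) - ε))) := by
      rw [← hv₀a]
      exact (htyp v₀ hv₀T i).2
    have h4 := (h2.trans h1).trans h3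
    rw [Real.exp_neg (n * (enty q (π i₀) + ε)), ← div_eq_mul_inv,
      div_le_iff₀ (Real.exp_pos _), ← Real.exp_add] at h4
    refine h4.trans (Real.exp_le_exp.2 ?_)
    linarith

end Vale.Agent.P141
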