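import Vale.Agent.P141.Bumps
import Vale.Agent.P141.Typical
import Vale.Agent.P141.Hash

/-!
The entropy criterion for unboundedness of the trilinear Hilbert transform.
-/

open MeasureTheory Filter Topology
open scoped SchwartzMap ENNReal

namespace Vale.Agent.P141

open Finset

variable {α : Type} [DecidableEq α]

lemma ent_eq_enty (G : Finset (ℤ × ℤ)) (q : ℤ × ℤ → ℝ) (π : ℤ × ℤ → α) :
    ent G q π = enty (fun z : {z // z ∈ G.filter fun z => q z ≠ 0} => q z) (fun z => π z) := by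
  classical
  set G' := G.filter fun z => q z ≠ 0
  have hsumG : ∀ v, ∑ z ∈ G with π z = v, q z = ∑ z ∈ G' with π z = v, q z := by
    intro v
    refine (sum_subset (filter_subset_filter _ (filter_subset _ _)) fun z hz hz' => ?_).symm
    by_contra h
    exact hz' (mem_filter.2 ⟨mem_filter.2 ⟨(mem_filter.1 hz).1, h⟩, (mem_filter.1 hz).2⟩)
  have hmass : ∀ v, mass (fun z : {z // z ∈ G'} => q z) (fun z => π z) v =
      ∑ z ∈ G' with π z = v, q z := by
    intro v
    unfold mass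
    rw [sum_filter, sum_filter]
    exact sum_coe_sort G' fun z => if π z = v then q z else 0
  calc ent G q π = ∑ v ∈ G.image π,
        ∑ z ∈ G with π z = v, q z * -Real.log (∑ w ∈ G with π w = π z, q w) := by
        unfold ent
        refine sum_congr rfl fun v _ => ?_
        rw [Real.negMulLog, neg_mul, ← mul_neg, sum_mul]
        refine sum_congr rfl fun z hz => ?_
        rw [(mem_filter.1 hz).2]
    _ = ∑ z ∈ G, q z * -Real.log (∑ w ∈ G with π w = π z, q w) :=
        sum_fiberwise_of_maps_to (fun z hz => mem_image_of_mem π hz) _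
    _ = ∑ z ∈ G', q z * -Real.log (∑ w ∈ G with π w = π z, q w) := by
        refine (sum_subset (filter_subset _ _) fun z hz hz' => ?_).symm
        by_cases h : q z = 0
        · rw [h, zero_mul]
        · exact absurd (mem_filter.2 ⟨hz, h⟩) hz'
    _ = _ := by
        simp only [enty, info, hmass, hsumG]
        exact (sum_coe_sort G' fun z => q z * -Real.log (∑ w ∈ G' with π w = π z, q w)).symm

lemma enty_congr {Z β γ : Type*} [Fintype Z] [DecidableEq β] [DecidableEq γ] (q : Z → ℝ)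
    (a : Z → β) (b : Z → γ) (h : ∀ z w, a z = a w ↔ b z = b w) : enty q a = enty q b := by
  classical
  refine sum_congr rfl fun z _ => ?_
  simp only [info, mass]
  congr 3
  exact sum_congr (Finset.ext fun w => by simp [h w z]) fun _ _ => rfl

lemma enty_nonneg {Z β : Type*} [Fintype Z] [DecidableEq β] (q : Z → ℝ) (hq : ∀ z, 0 < q z)
    (hq1 : ∑ z, q z = 1) (a : Z → β) : 0 ≤ enty q a := by
  refine sum_nonneg fun z _ => mul_nonneg (hq z).le (neg_nonneg.2
    (Real.log_nonpos (mass_pos q hq a z).le ?_))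
  rw [← hq1]
  exact sum_le_sum_of_subset_of_nonneg (subset_univ _) fun w _ _ => (hq w).le

lemma exp_rpow (a b : ℝ) : Real.exp a ^ b = Real.exp (a * b) :=
  (Real.exp_mul a b).symm

/-- Integer configurations with entropic sizes from a law on pairs. -/
theorem exists_config {Z : Type*} [Fintype Z] (q : Z → ℝ) (hq : ∀ z, 0 < q z)
    (hq1 : ∑ z, q z = 1) (x t : Z → ℤ) (π : Fin 5 → Z → ℤ × ℤ)
    (h0 : ∀ z, π 0 z = (x z, t z)) (h1 : ∀ z, π 1 z = (x z, 0))
    (hj : ∀ i : Fin 3, ∀ z, π i.succ.succ z = (x z - ((i : ℕ) + 1 : ℤ) * t z, 0))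
    (hinj : Function.Injective (π 0)) (R : ℕ) (hR : ∀ z, (x z).natAbs + (t z).natAbs ≤ R)
    {ε : ℝ} (hε : 0 < ε) (hXJ : enty q (π 0) ≤ 2 * enty q (π 1)) :
    ∃ N : ℕ, ∀ n : ℕ, N ≤ n → 1 ≤ n → ∃ G : Finset (ℤ × ℤ), ∃ D : ℕ,
      (∀ z ∈ G, |z.1| ≤ (D : ℤ) ∧ |z.2| ≤ (D : ℤ)) ∧
      (∀ a, ((G.filter fun z => z.1 = a).card : ℝ) ≤
        Real.exp (n * (enty q (π 0) - enty q (π 1) + 2 * ε))) ∧
      (3 / 8) * Real.exp (n * (enty q (π 0) - ε)) ≤ G.card ∧
      (16 * D + 8 : ℝ) ≤ (128 * R + 8) * n * Real.exp (n * (enty q (π 1) + 2 * ε)) ∧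
      (∀ i : Fin 3, ((G.image fun z => z.1 - ((i : ℕ) + 1 : ℤ) * z.2).card : ℝ) ≤
        Real.exp (n * (enty q (π i.succ.succ) + ε))) := by
  classical
  obtain ⟨N, hN⟩ := exists_typical q hq hq1 π 0 hinj hε
  refine ⟨N, fun n hnN hn => ?_⟩
  have hn1 : (1 : ℝ) ≤ n := by exact_mod_cast hn
  obtain ⟨T, hTc, hTim, hTfib⟩ := hN n hnN
  set pr : (Fin n → Z) → (Fin n → ℤ) × (Fin n → ℤ) :=
    fun v => (fun k => x (v k), fun k => t (v k)) with hpr
  have hprinj : Function.Injective pr := fun v w h => funext fun k => hinj (by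
    rw [h0, h0]
    exact Prod.ext (congrFun (congrArg Prod.fst h) k) (congrFun (congrArg Prod.snd h) k))
  set W := T.image pr with hW
  have himg : ∀ (i : Fin 5) (F : (Fin n → ℤ) × (Fin n → ℤ) → (Fin n → ℤ)),
      (∀ v, F (pr v) = fun k => (π i (v k)).1) →
      ((W.image F).card : ℝ) ≤ Real.exp (n * (enty q (π i) + ε)) := by
    intro i F hF
    refine le_trans (Nat.cast_le.2 ?_) (hTim i)
    calc (W.image F).card = ((T.image fun v k => π i (v k)).image fun a k => (a k).1).card := by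
          rw [hW, image_image, image_image]
          exact congrArg card (image_congr fun v _ => hF v)
      _ ≤ _ := card_image_le
  set M : ℕ := ⌊Real.exp (n * (enty q (π 0) - enty q (π 1) + 2 * ε))⌋₊ with hMdef
  have hfib : ∀ a, (W.filter fun w => w.1 = a).card ≤ M := by
    intro a
    rw [hW, filter_image, card_image_of_injective _ hprinj]
    refine Nat.le_floor (le_trans (le_of_eq ?_) (hTfib 1 fun k => (a k, 0)))
    congr 2
    ext v
    simp [hpr, h1, funext_iff]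
  set K := 4 * ((W.image Prod.fst).card + M) with hKdef
  have hWR : ∀ w ∈ W, ∀ k, |w.1 k| ≤ (R : ℤ) ∧ |w.2 k| ≤ (R : ℤ) := by
    intro w hw k
    obtain ⟨v, -, rfl⟩ := mem_image.1 hw
    have hle := hR (v k)
    constructor <;> rw [Int.abs_eq_natAbs] <;> exact_mod_cast (by simp only [hpr]; omega)
  obtain ⟨G, hcard, hbox, hGfib, hGimg⟩ := exists_hash W R M K hWR hfib le_rfl
  have hMle : (M : ℝ) ≤ Real.exp (n * (enty q (π 0) - enty q (π 1) + 2 * ε)) :=
    Nat.floor_le (Real.exp_pos _).le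
  refine ⟨G, n * K * R, hbox, fun a => le_trans (Nat.cast_le.2 (hGfib a)) hMle, ?_, ?_, fun i => ?_⟩
  · have h : (3 : ℝ) * W.card ≤ 4 * G.card := by exact_mod_cast hcard
    rw [hW, card_image_of_injective _ hprinj] at h
    linarith
  · have hK : (K : ℝ) ≤ 8 * Real.exp (n * (enty q (π 1) + 2 * ε)) := by
      have hx1 : ((W.image Prod.fst).card : ℝ) ≤ Real.exp (n * (enty q (π 1) + 2 * ε)) := by
        refine (himg 1 Prod.fst fun v => by simp [hpr, h1]).trans (Real.exp_le_exp.2 ?_)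
        exact mul_le_mul_of_nonneg_left (by linarith) (by linarith)
      have hM1 : Real.exp (n * (enty q (π 0) - enty q (π 1) + 2 * ε)) ≤
          Real.exp (n * (enty q (π 1) + 2 * ε)) :=
        Real.exp_le_exp.2 (mul_le_mul_of_nonneg_left (by linarith) (by linarith))
      rw [hKdef]; push_cast; linarith
    have hx0 := enty_nonneg q hq hq1 (π 1)
    have he : 1 ≤ Real.exp (n * (enty q (π 1) + 2 * ε)) := Real.one_le_exp (by positivity)
    have h8 : (8 : ℝ) ≤ 8 * n * Real.exp (n * (enty q (π 1) + 2 * ε)) := by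
      nlinarith [mul_le_mul hn1 he zero_le_one (by linarith)]
    have := mul_le_mul_of_nonneg_left hK (show (0 : ℝ) ≤ 16 * n * R by positivity)
    push_cast
    linarith
  · refine le_trans (Nat.cast_le.2 (hGimg _))
      (himg i.succ.succ (fun w => w.1 - (((i : ℕ) + 1 : ℤ)) • w.2) fun v => ?_)
    funext m
    simp [hpr, hj]

/-- The growth comparison behind the criterion. -/
lemma growth_lt {r s J X L u ε c₀ C : ℝ} {n : ℕ} (hr : 0 < r) (hs : s = 1 / r) (hu : 0 < u)
    (hε : 4 * s * ε = u / 2) (hL : L = (s - 2) * X + J - u) (hc0 : 0 < c₀) (hC : 0 < C)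
    (hn : 8 * C / (c₀ * u ^ 2) < n) (hn1 : 1 ≤ n) {G D R : ℕ}
    (hG : (3 / 8) * Real.exp (n * (J - ε)) ≤ G)
    (hD : (16 * D + 8 : ℝ) ≤ (128 * R + 8) * n * Real.exp (n * (X + 2 * ε)))
    (hc : c₀ = (3 / 80) ^ s * ((1 / 10) / (128 * R + 8))) :
    C * Real.exp (n * (L + s * ε)) <
      ((1 / 10 : ℝ) * G * Real.exp (n * (J - X + 2 * ε)) ^ (r - 1)) ^ (1 / r) *
        ((1 / 10) / (16 * D + 8)) := by
  have hs0 : 0 < s := by rw [hs]; positivity
  have hn0 : (1 : ℝ) ≤ n := by exact_mod_cast hn1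
  have hbase : (3 / 80 : ℝ) * Real.exp (n * (J - ε) + n * (J - X + 2 * ε) * (r - 1)) ≤
      (1 / 10 : ℝ) * G * Real.exp (n * (J - X + 2 * ε)) ^ (r - 1) := by
    rw [exp_rpow, Real.exp_add, ← mul_assoc]
    exact mul_le_mul_of_nonneg_right (by linarith) (Real.exp_pos _).le
  have h1 : (3 / 80 : ℝ) ^ s *
      Real.exp ((n * (J - ε) + n * (J - X + 2 * ε) * (r - 1)) * s) ≤
      ((1 / 10 : ℝ) * G * Real.exp (n * (J - X + 2 * ε)) ^ (r - 1)) ^ (1 / r) := by
    rw [← hs, ← exp_rpow, ← Real.mul_rpow (by norm_num) (Real.exp_pos _).le]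
    exact Real.rpow_le_rpow (by positivity) hbase hs0.le
  have h2 : (1 / 10 : ℝ) / ((128 * R + 8) * n * Real.exp (n * (X + 2 * ε))) ≤
      (1 / 10) / (16 * D + 8) := div_le_div_of_nonneg_left (by norm_num) (by positivity) hD
  refine lt_of_lt_of_le ?_ (mul_le_mul h1 h2 (by positivity) (by positivity))
  have hrs : r * s = 1 := by rw [hs]; field_simp
  have hexp : (n * (J - ε) + n * (J - X + 2 * ε) * (r - 1)) * s =
      n * (L + s * ε) + n * (u / 2) + n * (X + 2 * ε) := by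
    rw [hL]
    linear_combination (n * (J - X + 2 * ε) : ℝ) * hrs - (n : ℝ) * hε
  rw [hexp, Real.exp_add, Real.exp_add]
  have hquad : (n * (u / 2)) ^ 2 / 2 ≤ Real.exp (n * (u / 2)) := by
    have h := Real.quadratic_le_exp_of_nonneg (show 0 ≤ (n : ℝ) * (u / 2) by positivity)
    have : 0 ≤ (n : ℝ) * (u / 2) := by positivity
    linarith
  have hbig : C * n < c₀ * Real.exp (n * (u / 2)) := by
    refine lt_of_lt_of_le ?_ (mul_le_mul_of_nonneg_left hquad hc0.le)
    rw [div_lt_iff₀ (by positivity)] at hn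
    nlinarith [mul_lt_mul_of_pos_right hn (show (0 : ℝ) < n by linarith)]
  calc C * Real.exp (n * (L + s * ε))
      = Real.exp (n * (L + s * ε)) * (C * n) / n := by field_simp
    _ < Real.exp (n * (L + s * ε)) * (c₀ * Real.exp (n * (u / 2))) / n :=
        div_lt_div_of_pos_right (mul_lt_mul_of_pos_left hbig (Real.exp_pos _)) (by linarith)
    _ = _ := by rw [hc]; field_simp

/-- The entropy criterion. -/
theorem unboundedAt_of_entropy (G : Finset (ℤ × ℤ)) (q : ℤ × ℤ → ℝ) (hq : IsLaw G q)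
    (p₁ p₂ p₃ r : ℝ) (h₁ : 1 < p₁) (h₂ : 1 < p₂) (h₃ : 1 < p₃) (hr : 0 < r) (hr2 : r < 1 / 2)
    (hH : 1 / r = 1 / p₁ + 1 / p₂ + 1 / p₃)
    (hc : ent G q (fun z => z.1 - z.2) / p₁ + ent G q (fun z => z.1 - 2 * z.2) / p₂ +
        ent G q (fun z => z.1 - 3 * z.2) / p₃ <
      (1 / r - 2) * ent G q (fun z => z.1) + ent G q id) :
    UnboundedAt p₁ p₂ p₃ r := by
  classical
  set G₀ := G.filter fun z => q z ≠ 0 with hG₀
  set qZ : {z // z ∈ G₀} → ℝ := fun z => q z with hqZdef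
  have hqZ : ∀ z, 0 < qZ z := fun z => by
    obtain ⟨hz, hz0⟩ := mem_filter.1 z.2
    exact lt_of_le_of_ne (hq.1 _ hz) (Ne.symm hz0)
  have hqZ1 : ∑ z, qZ z = 1 := by
    simp only [hqZdef]
    rw [sum_coe_sort G₀ q, hG₀, sum_filter_ne_zero]
    exact hq.2
  set π : Fin 5 → {z // z ∈ G₀} → ℤ × ℤ :=
    ![fun z => (z.1.1, z.1.2), fun z => (z.1.1, 0), fun z => (z.1.1 - z.1.2, 0),
      fun z => (z.1.1 - 2 * z.1.2, 0), fun z => (z.1.1 - 3 * z.1.2, 0)] with hπ
  set J := enty qZ (π 0) with hJ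
  set X := enty qZ (π 1) with hX
  set A := enty qZ (π 2) with hA
  set B := enty qZ (π 3) with hB
  set E := enty qZ (π 4) with hE
  have eJ : ent G q id = J := by rw [ent_eq_enty]; exact enty_congr _ _ _ fun z w => Iff.rfl
  have eX : ent G q (fun z => z.1) = X := by
    rw [ent_eq_enty]; exact enty_congr _ _ _ fun z w => by simp [hπ]
  have eA : ent G q (fun z => z.1 - z.2) = A := by
    rw [ent_eq_enty]; exact enty_congr _ _ _ fun z w => by simp [hπ]
  have eB : ent G q (fun z => z.1 - 2 * z.2) = B := by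
    rw [ent_eq_enty]; exact enty_congr _ _ _ fun z w => by simp [hπ]
  have eE : ent G q (fun z => z.1 - 3 * z.2) = E := by
    rw [ent_eq_enty]; exact enty_congr _ _ _ fun z w => by simp [hπ]
  rw [eJ, eX, eA, eB, eE] at hc
  have hinj : Function.Injective (π 0) := fun z w h => Subtype.ext (by simpa [hπ] using h)
  have hAB : J ≤ A + B := enty_le_add qZ hqZ hqZ1 _ _ _ hinj fun z w h => by
    simp [hπ, Prod.ext_iff] at h
    exact Subtype.ext (Prod.ext (by omega) (by omega))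
  have hAE : J ≤ A + E := enty_le_add qZ hqZ hqZ1 _ _ _ hinj fun z w h => by
    simp [hπ, Prod.ext_iff] at h
    exact Subtype.ext (Prod.ext (by omega) (by omega))
  have hBE : J ≤ B + E := enty_le_add qZ hqZ hqZ1 _ _ _ hinj fun z w h => by
    simp [hπ, Prod.ext_iff] at h
    exact Subtype.ext (Prod.ext (by omega) (by omega))
  set s := 1 / r with hsdef
  have hs2 : 2 < s := by rw [hsdef, lt_div_iff₀ hr]; linarith
  have hw₁ : 1 / p₁ < 1 := by rw [div_lt_one (by linarith)]; exact h₁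
  have hw₂ : 1 / p₂ < 1 := by rw [div_lt_one (by linarith)]; exact h₂
  have hw₃ : 1 / p₃ < 1 := by rw [div_lt_one (by linarith)]; exact h₃
  set L := A / p₁ + B / p₂ + E / p₃ with hL
  set u := (s - 2) * X + J - L with hu
  have hu0 : 0 < u := by rw [hu]; linarith
  have hXJ : J ≤ 2 * X := by
    by_contra hcon
    have c₁ : 0 ≤ (1 / p₁ + 1 / p₂ - 1 / p₃) / 2 := by linarith
    have c₂ : 0 ≤ (1 / p₁ + 1 / p₃ - 1 / p₂) / 2 := by linarith
    have c₃ : 0 ≤ (1 / p₂ + 1 / p₃ - 1 / p₁) / 2 := by linarith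
    have e₁ := mul_le_mul_of_nonneg_left hAB c₁
    have e₂ := mul_le_mul_of_nonneg_left hAE c₂
    have e₃ := mul_le_mul_of_nonneg_left hBE c₃
    have key : s / 2 * J ≤ L := by
      rw [hH, hL]; simp only [div_eq_mul_inv] at e₁ e₂ e₃ ⊢; linarith
    nlinarith [key, hu0]
  set ε := u / (8 * s) with hεdef
  have hε : 0 < ε := by rw [hεdef]; positivity
  set R : ℕ := G.sup fun z => z.1.natAbs + z.2.natAbs with hR
  obtain ⟨N, hN⟩ := exists_config qZ hqZ hqZ1 (fun z => z.1.1) (fun z => z.1.2) π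
    (fun z => rfl) (fun z => rfl) (fun i z => by fin_cases i <;> simp [hπ]) hinj R
    (fun z => le_sup (f := fun z : ℤ × ℤ => z.1.natAbs + z.2.natAbs) (mem_filter.1 z.2).1) hε hXJ
  intro C
  set c₀ : ℝ := (3 / 80) ^ s * ((1 / 10) / (128 * R + 8)) with hc₀
  have hc0 : 0 < c₀ := by rw [hc₀]; positivity
  obtain ⟨n₁, hn₁⟩ := exists_nat_gt (8 * (|C| + 1) / (c₀ * u ^ 2))
  set n := max (N + 1) (n₁ + 1) with hn
  obtain ⟨G', D, hbox, hfib, hGc, hD, himg⟩ := hN n (by omega) (by omega)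
  obtain ⟨f₁, f₂, f₃, g, htend, hnorm, hlow⟩ :=
    config_lower hr (by linarith : r ≤ 1) G' D _ hbox hfib (Real.exp_pos _)
  refine ⟨f₁, f₂, f₃, g, htend, lt_of_le_of_lt ?_ (lt_of_lt_of_le
    ((ENNReal.ofReal_lt_ofReal_iff_of_nonneg (by positivity)).2
      (growth_lt (L := L) (u := u) (C := |C| + 1) hr hsdef hu0
        (by rw [hεdef]; field_simp; ring) (by rw [hu]; ring) hc0
        (by positivity) (lt_trans hn₁ (by exact_mod_cast (show n₁ < n by omega))) (by omega)
        hGc hD hc₀)) hlow)⟩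
  have hexp : Real.exp (n * (L + s * ε)) = Real.exp (n * (A + ε) * (1 / p₁)) *
      Real.exp (n * (B + ε) * (1 / p₂)) * Real.exp (n * (E + ε) * (1 / p₃)) := by
    rw [← Real.exp_add, ← Real.exp_add, hH, hL]
    ring_nf
  have b : ∀ {a H p : ℝ}, 0 ≤ a → a ≤ Real.exp (n * (H + ε)) → 0 < p →
      a ^ (1 / p) ≤ Real.exp (n * (H + ε) * (1 / p)) := fun {a H p} ha hle hp => by
    rw [← exp_rpow]
    exact Real.rpow_le_rpow ha hle (by positivity)
  have i₁ : ((G'.image fun z => z.1 - z.2).card : ℝ) ≤ Real.exp (n * (A + ε)) := by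
    simpa using himg 0
  have i₂ : ((G'.image fun z => z.1 - 2 * z.2).card : ℝ) ≤ Real.exp (n * (B + ε)) := by
    simpa using himg 1
  have i₃ : ((G'.image fun z => z.1 - 3 * z.2).card : ℝ) ≤ Real.exp (n * (E + ε)) := by
    simpa using himg 2
  obtain ⟨n₁', -, -⟩ := hnorm p₁ (by linarith)
  obtain ⟨-, n₂', -⟩ := hnorm p₂ (by linarith)
  obtain ⟨-, -, n₃'⟩ := hnorm p₃ (by linarith)
  rw [hexp, ← mul_assoc, ← mul_assoc, ENNReal.ofReal_mul (by positivity),
    ENNReal.ofReal_mul (by positivity), ENNReal.ofReal_mul (by positivity)]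
  exact mul_le_mul' (mul_le_mul' (mul_le_mul'
    (ENNReal.ofReal_le_ofReal (by linarith [le_abs_self C]))
    (n₁'.trans (ENNReal.ofReal_le_ofReal (b (Nat.cast_nonneg _) i₁ (by linarith)))))
    (n₂'.trans (ENNReal.ofReal_le_ofReal (b (Nat.cast_nonneg _) i₂ (by linarith)))))
    (n₃'.trans (ENNReal.ofReal_le_ofReal (b (Nat.cast_nonneg _) i₃ (by linarith))))

end Vale.Agent.P141
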