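import Vale.Agent.P141.Entropy

/-!
Two explicit laws for the entropy criterion.
-/

namespace Vale.Agent.P141

open Finset

/-- The product of `c ^ c` over the values of `π`, `c` being the count of the value. -/
def cprod (G : Finset (ℤ × ℤ)) (c : ℤ × ℤ → ℕ) {α : Type} [DecidableEq α] (π : ℤ × ℤ → α) : ℕ :=
  ∏ v ∈ G.image π, (∑ z ∈ G with π z = v, c z) ^ (∑ z ∈ G with π z = v, c z)

lemma ent_counts (G : Finset (ℤ × ℤ)) (c : ℤ × ℤ → ℕ) (N : ℕ) (hN : 0 < N)
    (hsum : ∑ z ∈ G, c z = N) {α : Type} [DecidableEq α] (π : ℤ × ℤ → α) :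
    ent G (fun z => (c z : ℝ) / N) π = Real.log N - Real.log (cprod G c π) / N := by
  classical
  have hN' : (0 : ℝ) < N := by exact_mod_cast hN
  set m : α → ℕ := fun v => ∑ z ∈ G with π z = v, c z with hm
  have hne : ∀ v ∈ G.image π, ((m v : ℝ) ^ m v) ≠ 0 := by
    intro v _
    rcases Nat.eq_zero_or_pos (m v) with h | h
    · simp [h]
    · positivity
  have htot : ∑ v ∈ G.image π, (m v : ℝ) = N := by
    rw [← Nat.cast_sum, hm, sum_fiberwise_of_maps_to (fun z hz => mem_image_of_mem π hz), hsum]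
  have hlog : Real.log (cprod G c π) = ∑ v ∈ G.image π, (m v : ℝ) * Real.log (m v) := by
    unfold cprod
    push_cast
    rw [Real.log_prod]
    · refine sum_congr rfl fun v _ => ?_
      rw [Real.log_pow, hm]
      push_cast
      rfl
    · intro v hv
      have := hne v hv
      rw [hm] at this
      push_cast at this
      exact this
  have h1 : ∀ v ∈ G.image π, Real.negMulLog (∑ z ∈ G with π z = v, (c z : ℝ) / N) =
      (m v : ℝ) / N * Real.log N - (m v : ℝ) * Real.log (m v) / N := by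
    intro v _
    rw [← sum_div, ← Nat.cast_sum]
    change Real.negMulLog ((m v : ℝ) / N) = _
    rcases Nat.eq_zero_or_pos (m v) with h | h
    · simp [h]
    · rw [Real.negMulLog, Real.log_div (by positivity) hN'.ne']
      ring
  unfold ent
  rw [sum_congr rfl h1, sum_sub_distrib, ← sum_mul, ← sum_div, ← sum_div, htot, div_self hN'.ne',
    one_mul, hlog]

lemma isLaw_counts (G : Finset (ℤ × ℤ)) (c : ℤ × ℤ → ℕ) (N : ℕ) (hN : 0 < N)
    (hsum : ∑ z ∈ G, c z = N) : IsLaw G fun z => (c z : ℝ) / N := by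
  refine ⟨fun z _ => by positivity, ?_⟩
  rw [← sum_div, ← Nat.cast_sum, hsum]
  exact div_self (by exact_mod_cast hN.ne')

/-- Sixteen points giving unbounded tuples for every `r` below one half. -/
def G₁ : Finset (ℤ × ℤ) :=
  (Finset.range 4 ×ˢ Finset.range 4).image fun v => (4 * (v.1 : ℤ) - v.2, 2 * (v.1 : ℤ) - v.2)

theorem exists_unbounded {r : ℝ} (hr : 1 / 3 < r) (hr2 : r < 1 / 2) :
    ∃ p₁ p₂ p₃ : ℝ, 1 < p₁ ∧ 1 < p₂ ∧ 1 < p₃ ∧ 1 / r = 1 / p₁ + 1 / p₂ + 1 / p₃ ∧
      UnboundedAt p₁ p₂ p₃ r := by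
  have hr0 : 0 < r := by linarith
  set s := 1 / r with hs
  have hs2 : 2 < s := by rw [hs, lt_div_iff₀ hr0]; linarith
  have hs3 : s < 3 := by rw [hs, div_lt_iff₀ hr0]; linarith
  set η := min (3 - s) (s - 2) / 2 with hη
  have hη1 : η ≤ (3 - s) / 2 := by rw [hη]; linarith [min_le_left (3 - s) (s - 2)]
  have hη2 : η ≤ (s - 2) / 2 := by rw [hη]; linarith [min_le_right (3 - s) (s - 2)]
  have hη0 : 0 < η := by rw [hη]; exact div_pos (lt_min (by linarith) (by linarith)) two_pos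
  set e := s - 2 + η with he
  set w := (s - e) / 2 with hw
  have hw0 : 0 < w := by rw [hw, he]; linarith
  have hw1 : w < 1 := by rw [hw, he]; linarith
  have he0 : 0 < e := by rw [he]; linarith
  have he1 : e < 1 := by rw [he]; linarith
  have hH : s = 1 / (1 / w) + 1 / (1 / w) + 1 / (1 / e) := by rw [one_div_one_div, one_div_one_div, hw]; ring
  refine ⟨1 / w, 1 / w, 1 / e, one_lt_one_div hw0 hw1, one_lt_one_div hw0 hw1,
    one_lt_one_div he0 he1, hH, ?_⟩
  have hsum : ∑ z ∈ G₁, (fun _ : ℤ × ℤ => (1 : ℕ)) z = 16 := by decide +kernel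
  refine unboundedAt_of_entropy G₁ _ (isLaw_counts G₁ (fun _ => 1) 16 (by norm_num) hsum)
    _ _ _ r (one_lt_one_div hw0 hw1) (one_lt_one_div hw0 hw1) (one_lt_one_div he0 he1) hr0 hr2
    hH ?_
  simp only [ent_counts G₁ (fun _ => 1) 16 (by norm_num) hsum]
  rw [show cprod G₁ (fun _ => 1) (fun z => z.1 - z.2) = 2 ^ 32 by decide +kernel,
    show cprod G₁ (fun _ => 1) (fun z => z.1 - 2 * z.2) = 2 ^ 32 by decide +kernel,
    show cprod G₁ (fun _ => 1) (fun z => z.1 - 3 * z.2) = 2 ^ 12 * 3 ^ 6 by decide +kernel,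
    show cprod G₁ (fun _ => 1) (fun z => z.1) = 1 by decide +kernel,
    show cprod G₁ (fun _ => 1) (id : ℤ × ℤ → ℤ × ℤ) = 1 by decide +kernel]
  have l₁ : Real.log ((2 ^ 32 : ℕ) : ℝ) = 32 * Real.log 2 := by
    rw [Nat.cast_pow, Real.log_pow]; norm_num
  have l₂ : Real.log ((2 ^ 12 * 3 ^ 6 : ℕ) : ℝ) = 12 * Real.log 2 + 6 * Real.log 3 := by
    rw [Nat.cast_mul, Nat.cast_pow, Nat.cast_pow,
      Real.log_mul (by norm_num) (by norm_num), Real.log_pow, Real.log_pow]
    norm_num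
  have l₃ : Real.log ((16 : ℕ) : ℝ) = 4 * Real.log 2 := by
    rw [show ((16 : ℕ) : ℝ) = 2 ^ 4 by norm_num, Real.log_pow]; norm_num
  rw [l₁, l₂, l₃, Nat.cast_one, Real.log_one]
  rw [div_div_eq_mul_div, div_div_eq_mul_div, ← hs]
  have hl2 : 0 < Real.log 2 := Real.log_pos (by norm_num)
  have hl3 : Real.log 2 < Real.log 3 := Real.log_lt_log (by norm_num) (by norm_num)
  have hk : e * ((12 * Real.log 2 + 6 * Real.log 3) / 16) > e * Real.log 2 :=
    mul_lt_mul_of_pos_left (by linarith) he0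
  have he2 : e ≤ 2 * (s - 2) := by rw [he]; linarith
  have hke := mul_le_mul_of_nonneg_left he2 hl2.le
  have hwe : 2 * w = s - e := by rw [hw]; ring
  nlinarith [hk, hke, congrArg (· * Real.log 2) hwe]

/-- Counts of a near-optimal law for equal exponents. -/
def tbl : List ℕ :=
  [0, 0, 0, 1, 1, 1,
   0, 0, 2, 3, 3, 1,
   0, 2, 4, 4, 3, 1,
   1, 3, 4, 4, 2, 0,
   1, 3, 3, 2, 0, 0,
   1, 1, 1, 0, 0, 0]

/-- The support of the law for equal exponents. -/
def G₂ : Finset (ℤ × ℤ) :=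
  (Finset.range 6 ×ˢ Finset.range 6).image fun v => (3 * (v.1 : ℤ) - v.2, (v.1 : ℤ) - v.2)

/-- The counts of the law for equal exponents. -/
def c₂ (z : ℤ × ℤ) : ℕ := tbl.getD (((z.1 - z.2) / 2) * 6 + ((z.1 - z.2) / 2 - z.2)).toNat 0

theorem unbounded_equal {r : ℝ} (hr : 1 / 3 < r) (hr2 : r ≤ 7 / 15) :
    UnboundedAt (3 * r) (3 * r) (3 * r) r := by
  have hr0 : 0 < r := by linarith
  have hsum : ∑ z ∈ G₂, c₂ z = 52 := by decide +kernel
  refine unboundedAt_of_entropy G₂ _ (isLaw_counts G₂ c₂ 52 (by norm_num) hsum)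
    _ _ _ r (by linarith) (by linarith) (by linarith) hr0 (by linarith) (by field_simp; norm_num) ?_
  simp only [ent_counts G₂ c₂ 52 (by norm_num) hsum]
  generalize hA : cprod G₂ c₂ (fun z => z.1 - z.2) = PA
  generalize hB : cprod G₂ c₂ (fun z => z.1 - 2 * z.2) = PB
  generalize hE : cprod G₂ c₂ (fun z => z.1 - 3 * z.2) = PE
  generalize hX : cprod G₂ c₂ (fun z => z.1) = PX
  generalize hJ : cprod G₂ c₂ (id : ℤ × ℤ → ℤ × ℤ) = PJ
  have k₁ : PX * PJ ^ 7 * 52 ^ 364 < (PA * PB * PE) ^ 5 := by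
    subst hA hB hE hX hJ; decide +kernel
  have k₂ : PX ^ 3 ≤ PA * PB * PE := by subst hA hB hE hX hJ; decide +kernel
  have k₀ : 0 < PA ∧ 0 < PB ∧ 0 < PE ∧ 0 < PX ∧ 0 < PJ := by
    subst hA hB hE hX hJ; decide +kernel
  obtain ⟨qA, qB, qE, qX, qJ⟩ := k₀
  have qA' : (0 : ℝ) < PA := by exact_mod_cast qA
  have qB' : (0 : ℝ) < PB := by exact_mod_cast qB
  have qE' : (0 : ℝ) < PE := by exact_mod_cast qE
  have qX' : (0 : ℝ) < PX := by exact_mod_cast qX
  have qJ' : (0 : ℝ) < PJ := by exact_mod_cast qJ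
  have g₁ : Real.log PX + 7 * Real.log PJ + 364 * Real.log 52 <
      5 * (Real.log PA + Real.log PB + Real.log PE) := by
    have h : ((PX * PJ ^ 7 * 52 ^ 364 : ℕ) : ℝ) < (((PA * PB * PE) ^ 5 : ℕ) : ℝ) :=
      Nat.cast_lt.2 k₁
    push_cast at h
    have := Real.log_lt_log (by positivity) h
    rw [Real.log_mul (by positivity) (by positivity), Real.log_mul (by positivity) (by positivity),
      Real.log_pow, Real.log_pow, Real.log_pow, Real.log_mul (by positivity) (by positivity),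
      Real.log_mul (by positivity) (by positivity)] at this
    push_cast at this
    linarith
  have g₂ : 3 * Real.log PX ≤ Real.log PA + Real.log PB + Real.log PE := by
    have h : ((PX ^ 3 : ℕ) : ℝ) ≤ ((PA * PB * PE : ℕ) : ℝ) := Nat.cast_le.2 k₂
    push_cast at h
    have := Real.log_le_log (by positivity) h
    rw [Real.log_pow, Real.log_mul (by positivity) (by positivity),
      Real.log_mul (by positivity) (by positivity)] at this
    push_cast at this
    linarith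
  push_cast
  set s := 1 / r with hs
  have hs7 : 15 / 7 ≤ s := by rw [hs, le_div_iff₀ hr0]; linarith
  have e3 : ∀ a : ℝ, a / (3 * r) = a * s / 3 := fun a => by rw [hs]; field_simp
  simp only [e3]
  nlinarith [mul_nonneg (sub_nonneg.2 hs7) (sub_nonneg.2 g₂), g₁]

end Vale.Agent.P141
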